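/-
helper69 -- S0505 squad (track D2), leaf F (hedge copy): the circuit `circ` of helper91's
Defs is syntactically homogeneous.  Own derivation: formal degrees are
leaf = 1, bottom sum = 1, lower product (g, i, j, w) = number of genuine steps of block g,
middle sum (g, i, j) = the same number (the input set is nonempty as soon as block g has a
genuine step: take the interior path constantly equal to j), top product = sum over blocks.
-/
import Crest.Agent.Helper91.S0505.Defs

set_option autoImplicit false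

namespace Crest.Agent.Helper69.S0505

open Crest.ArithCircuit Crest.Agent.Helper91.S0505

theorem ext_succ_const {n m : ℕ} (i j : Fin n) (s : Fin (m + 1)) :
    ext i (fun _ : Fin m => j) j s.succ = j := by
  unfold ext
  rw [Fin.cons_succ]
  induction s using Fin.lastCases with
  | last => simp
  | cast s => simp

theorem ext_castSucc_const {n m : ℕ} (i j : Fin n) (s : Fin (m + 1)) (hs : s ≠ 0) :
    ext i (fun _ : Fin m => j) j s.castSucc = j := by
  obtain ⟨s', rfl⟩ := Fin.exists_succ_eq.mpr hs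
  have h : (s'.succ).castSucc = (s'.castSucc).succ := rfl
  rw [h]
  unfold ext
  rw [Fin.cons_succ]
  simp

theorem circ_leafDeg (K : Type*) [CommSemiring K] (n' t' ρ : ℕ) (l : Var (n' + 1)) :
    (circ K n' t' ρ).leafDeg l = 1 := rfl

theorem circ_degB (K : Type*) [CommSemiring K] (n' t' ρ : ℕ) (b : Var (n' + 1)) :
    (circ K n' t' ρ).degB b = 1 := by
  show (({b} : Finset (Var (n' + 1)))).sup (circ K n' t' ρ).leafDeg = 1
  rw [Finset.sup_singleton]
  rfl

theorem circ_degP (K : Type*) [CommSemiring K] (n' t' ρ : ℕ) (p : PIdx n' t' ρ) :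
    (circ K n' t' ρ).degP p = (realSteps (n' + 1) (t' + 1) p.1.val).card := by
  show (((realSteps (n' + 1) (t' + 1) p.1.val).val.map fun s =>
    ((Fin.ofNat (n' + 1) (p.1.val * (t' + 1) + s.val),
      ext p.2.1 p.2.2.2 p.2.2.1 s.castSucc, ext p.2.1 p.2.2.2 p.2.2.1 s.succ) :
        Var (n' + 1))).map (circ K n' t' ρ).degB).sum = _
  rw [Multiset.map_map]
  have : ((circ K n' t' ρ).degB ∘ fun s : Fin (t' + 1) =>
      ((Fin.ofNat (n' + 1) (p.1.val * (t' + 1) + s.val),
        ext p.2.1 p.2.2.2 p.2.2.1 s.castSucc, ext p.2.1 p.2.2.2 p.2.2.1 s.succ) :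
          Var (n' + 1))) = fun _ => 1 := by
    funext s
    exact circ_degB K n' t' ρ _
  rw [this]
  simp

theorem mem_inS_fst (K : Type*) [CommSemiring K] (n' t' ρ : ℕ) (q : SIdx n' ρ)
    (p : PIdx n' t' ρ) (hp : p ∈ (circ K n' t' ρ).inS q) : p.1 = q.1 := by
  have hp' : p ∈ (Finset.univ.filter fun w : Fin t' → Fin (n' + 1) =>
      ∀ s : Fin (t' + 1), n' + 1 ≤ q.1.val * (t' + 1) + s.val →
        ext q.2.1 w q.2.2 s.castSucc = ext q.2.1 w q.2.2 s.succ).map
    ⟨fun w => ((q.1, q.2.1, q.2.2, w) : PIdx n' t' ρ), fun _ _ h => by simpa using h⟩ := hp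
  rw [Finset.mem_map] at hp'
  obtain ⟨w, _, rfl⟩ := hp'
  rfl

theorem const_mem_inS (K : Type*) [CommSemiring K] (n' t' ρ : ℕ) (q : SIdx n' ρ)
    (h : (realSteps (n' + 1) (t' + 1) q.1.val).Nonempty) :
    ((q.1, q.2.1, q.2.2, fun _ => q.2.2) : PIdx n' t' ρ) ∈ (circ K n' t' ρ).inS q := by
  show _ ∈ (Finset.univ.filter fun w : Fin t' → Fin (n' + 1) =>
      ∀ s : Fin (t' + 1), n' + 1 ≤ q.1.val * (t' + 1) + s.val →
        ext q.2.1 w q.2.2 s.castSucc = ext q.2.1 w q.2.2 s.succ).map
    ⟨fun w => ((q.1, q.2.1, q.2.2, w) : PIdx n' t' ρ), fun _ _ h => by simpa using h⟩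
  rw [Finset.mem_map]
  refine ⟨fun _ => q.2.2, ?_, rfl⟩
  rw [Finset.mem_filter]
  refine ⟨Finset.mem_univ _, ?_⟩
  intro s hs
  obtain ⟨s0, hs0⟩ := h
  have hs0' : q.1.val * (t' + 1) + s0.val < n' + 1 := by
    simpa [realSteps] using hs0
  have hne : s ≠ 0 := by
    rintro rfl
    simp at hs
    omega
  rw [ext_castSucc_const _ _ _ hne, ext_succ_const]

theorem circ_degS (K : Type*) [CommSemiring K] (n' t' ρ : ℕ) (q : SIdx n' ρ) :
    (circ K n' t' ρ).degS q = (realSteps (n' + 1) (t' + 1) q.1.val).card := by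
  have hle : (circ K n' t' ρ).degS q ≤ (realSteps (n' + 1) (t' + 1) q.1.val).card := by
    show ((circ K n' t' ρ).inS q).sup (circ K n' t' ρ).degP ≤ _
    apply Finset.sup_le
    intro p hp
    rw [circ_degP, mem_inS_fst K n' t' ρ q p hp]
  rcases Finset.eq_empty_or_nonempty (realSteps (n' + 1) (t' + 1) q.1.val) with h0 | hne
  · rw [h0] at hle ⊢
    simpa using hle
  · apply le_antisymm hle
    have hmem := const_mem_inS K n' t' ρ q hne
    have := Finset.le_sup (f := (circ K n' t' ρ).degP) hmem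
    rw [circ_degP] at this
    exact this

theorem circ_degR (K : Type*) [CommSemiring K] (n' t' ρ : ℕ) (f : RIdx n' ρ) :
    (circ K n' t' ρ).degR f =
      ∑ g : Fin (ρ + 1), (realSteps (n' + 1) (t' + 1) g.val).card := by
  show ((((Finset.univ : Finset (Fin (ρ + 1))).val.map fun g =>
    ((g, ext 0 f 0 g.castSucc, ext 0 f 0 g.succ) : SIdx n' ρ))).map
      (circ K n' t' ρ).degS).sum = _
  rw [Multiset.map_map]
  have : ((circ K n' t' ρ).degS ∘ fun g : Fin (ρ + 1) =>
      ((g, ext 0 f 0 g.castSucc, ext 0 f 0 g.succ) : SIdx n' ρ)) =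
      fun g : Fin (ρ + 1) => (realSteps (n' + 1) (t' + 1) g.val).card := by
    funext g
    exact circ_degS K n' t' ρ _
  rw [this]
  rfl

/-- Leaf F: the circuit is syntactically homogeneous. -/
theorem circ_isHomogeneous (K : Type*) [CommSemiring K] (n' t' ρ : ℕ) :
    (circ K n' t' ρ).IsHomogeneous := by
  refine ⟨?_, ?_, ?_⟩
  · intro b l _
    rw [circ_leafDeg, circ_degB]
  · intro s p hp
    rw [circ_degP, circ_degS, mem_inS_fst K n' t' ρ s p hp]
  · intro r hr
    rw [circ_degR]
    apply le_antisymm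
    · have := Finset.le_sup (f := (circ K n' t' ρ).degR) hr
      rw [circ_degR] at this
      exact this
    · show ((circ K n' t' ρ).inOut).sup (circ K n' t' ρ).degR ≤ _
      apply Finset.sup_le
      intro r' _
      rw [circ_degR]

end Crest.Agent.Helper69.S0505
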